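import Mathlib
import Vale.Agent.Lib.P090.Defs

/-!
P090, pool job D (second backup copy, helper62): the bounded linear map between Lipschitz-free
spaces induced by a Lipschitz map, its norm bound, and the retract identity.
-/

namespace Vale.Agent.Lib.P090.H62

open Vale.Agent.Lib.P090
open scoped NNReal ENNReal

universe u

variable {M N : Type u} [MetricSpace M] [MetricSpace N]

/-- Composition with a Lipschitz map, recentred at the base point, is Lipschitz. -/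
theorem comp0_lip (φ : M → N) (K : ℝ≥0) (hφ : LipschitzWith K φ) (o : M) {o' : N}
    (f : Lip0 N o') :
    LipschitzWith (‖f‖₊ * K) (fun x => f.fn (φ x) - f.fn (φ o)) := by
  refine LipschitzWith.of_dist_le_mul fun x y => ?_
  rw [Real.dist_eq]
  have h1 := lip0_abs_sub_le f (φ x) (φ y)
  have h2 := hφ.dist_le_mul x y
  have e : f.fn (φ x) - f.fn (φ o) - (f.fn (φ y) - f.fn (φ o)) = f.fn (φ x) - f.fn (φ y) := by
    ring
  rw [e, NNReal.coe_mul, coe_nnnorm, mul_assoc]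
  exact h1.trans (mul_le_mul_of_nonneg_left h2 (norm_nonneg f))

/-- Composition with a Lipschitz map, recentred at the base point, as a linear map. -/
noncomputable def comp0Lin (φ : M → N) (K : ℝ≥0) (hφ : LipschitzWith K φ) (o : M) (o' : N) :
    Lip0 N o' →ₗ[ℝ] Lip0 M o where
  toFun f := Lip0.mk (fun x => f.fn (φ x) - f.fn (φ o)) (sub_self _) (‖f‖₊ * K)
    (comp0_lip φ K hφ o f)
  map_add' f g := by
    apply Lip0.ext
    intro x
    show (f + g).fn (φ x) - (f + g).fn (φ o)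
      = (f.fn (φ x) - f.fn (φ o)) + (g.fn (φ x) - g.fn (φ o))
    rw [Lip0.fn_add, Lip0.fn_add]
    ring
  map_smul' c f := by
    apply Lip0.ext
    intro x
    show (c • f).fn (φ x) - (c • f).fn (φ o) = c * (f.fn (φ x) - f.fn (φ o))
    rw [Lip0.fn_smul, Lip0.fn_smul]
    ring

theorem comp0Lin_fn (φ : M → N) (K : ℝ≥0) (hφ : LipschitzWith K φ) (o : M) (o' : N)
    (f : Lip0 N o') (x : M) :
    (comp0Lin φ K hφ o o' f).fn x = f.fn (φ x) - f.fn (φ o) := rfl

/-- Composition with a Lipschitz map, recentred at the base point, as a bounded linear map. -/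
noncomputable def comp0 (φ : M → N) (K : ℝ≥0) (hφ : LipschitzWith K φ) (o : M) (o' : N) :
    Lip0 N o' →L[ℝ] Lip0 M o :=
  LinearMap.mkContinuous (comp0Lin φ K hφ o o') K (fun f => by
    refine lip0_norm_le _ (K * ‖f‖) (mul_nonneg K.2 (norm_nonneg f)) (fun x y => ?_)
    rw [comp0Lin_fn, comp0Lin_fn]
    have e : f.fn (φ x) - f.fn (φ o) - (f.fn (φ y) - f.fn (φ o)) = f.fn (φ x) - f.fn (φ y) := by
      ring
    rw [e]
    have h1 := lip0_abs_sub_le f (φ x) (φ y)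
    have h2 := hφ.dist_le_mul x y
    calc |f.fn (φ x) - f.fn (φ y)| ≤ ‖f‖ * dist (φ x) (φ y) := h1
      _ ≤ ‖f‖ * (K * dist x y) := mul_le_mul_of_nonneg_left h2 (norm_nonneg f)
      _ = K * ‖f‖ * dist x y := by ring)

theorem comp0_fn (φ : M → N) (K : ℝ≥0) (hφ : LipschitzWith K φ) (o : M) (o' : N)
    (f : Lip0 N o') (x : M) :
    (comp0 φ K hφ o o' f).fn x = f.fn (φ x) - f.fn (φ o) := rfl

theorem norm_comp0_le (φ : M → N) (K : ℝ≥0) (hφ : LipschitzWith K φ) (o : M) (o' : N) :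
    ‖comp0 φ K hφ o o'‖ ≤ K :=
  LinearMap.mkContinuous_norm_le _ K.2 _

/-- The adjoint of `comp0` on the duals. -/
noncomputable def adj (φ : M → N) (K : ℝ≥0) (hφ : LipschitzWith K φ) (o : M) (o' : N) :
    (Lip0 M o →L[ℝ] ℝ) →L[ℝ] (Lip0 N o' →L[ℝ] ℝ) :=
  (ContinuousLinearMap.compL ℝ (Lip0 N o') (Lip0 M o) ℝ).flip (comp0 φ K hφ o o')

theorem adj_apply (φ : M → N) (K : ℝ≥0) (hφ : LipschitzWith K φ) (o : M) (o' : N)
    (g : Lip0 M o →L[ℝ] ℝ) (f : Lip0 N o') :
    adj φ K hφ o o' g f = g (comp0 φ K hφ o o' f) := rfl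

theorem norm_adj_le (φ : M → N) (K : ℝ≥0) (hφ : LipschitzWith K φ) (o : M) (o' : N) :
    ‖adj φ K hφ o o'‖ ≤ K := by
  refine ContinuousLinearMap.opNorm_le_bound _ K.2 (fun g => ?_)
  refine ContinuousLinearMap.opNorm_le_bound _ (mul_nonneg K.2 (norm_nonneg g)) (fun f => ?_)
  rw [adj_apply]
  calc ‖g (comp0 φ K hφ o o' f)‖ ≤ ‖g‖ * ‖comp0 φ K hφ o o' f‖ := g.le_opNorm _
    _ ≤ ‖g‖ * (K * ‖f‖) :=
      mul_le_mul_of_nonneg_left
        ((comp0 φ K hφ o o').le_of_opNorm_le (norm_comp0_le φ K hφ o o') f) (norm_nonneg g)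
    _ = K * ‖g‖ * ‖f‖ := by ring

theorem adj_delta (φ : M → N) (K : ℝ≥0) (hφ : LipschitzWith K φ) (o : M) (o' : N) (x : M) :
    adj φ K hφ o o' (delta M o x) = delta N o' (φ x) - delta N o' (φ o) := by
  ext f
  rfl

theorem adj_mem_free (φ : M → N) (K : ℝ≥0) (hφ : LipschitzWith K φ) (o : M) (o' : N)
    (g : Lip0 M o →L[ℝ] ℝ) (hg : g ∈ free M o) : adj φ K hφ o o' g ∈ free N o' := by
  have hspan : ∀ a ∈ Submodule.span ℝ (Set.range (delta M o)),
      adj φ K hφ o o' a ∈ Submodule.span ℝ (Set.range (delta N o')) := by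
    intro a ha
    refine Submodule.span_induction ?_ ?_ ?_ ?_ ha
    · rintro _ ⟨x, rfl⟩
      rw [adj_delta]
      exact Submodule.sub_mem _ (Submodule.subset_span ⟨φ x, rfl⟩)
        (Submodule.subset_span ⟨φ o, rfl⟩)
    · rw [map_zero]
      exact Submodule.zero_mem _
    · intro a b _ _ ha hb
      rw [map_add]
      exact Submodule.add_mem _ ha hb
    · intro c a _ ha
      rw [map_smul]
      exact Submodule.smul_mem _ c ha
  have hg' : g ∈ closure (Submodule.span ℝ (Set.range (delta M o)) : Set (Lip0 M o →L[ℝ] ℝ)) :=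
    hg
  exact map_mem_closure (adj φ K hφ o o').continuous hg' (fun a ha => hspan a ha)

/-- The bounded linear map between Lipschitz-free spaces induced by a Lipschitz map. -/
noncomputable def freeMap (φ : M → N) (K : ℝ≥0) (hφ : LipschitzWith K φ) (o : M) (o' : N) :
    free M o →L[ℝ] free N o' :=
  ((adj φ K hφ o o').comp (free M o).subtypeL).codRestrict (free N o')
    (fun y => adj_mem_free φ K hφ o o' y.1 y.2)

theorem freeMap_coe (φ : M → N) (K : ℝ≥0) (hφ : LipschitzWith K φ) (o : M) (o' : N)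
    (y : free M o) :
    ((freeMap φ K hφ o o' y : free N o') : Lip0 N o' →L[ℝ] ℝ)
      = adj φ K hφ o o' (y : Lip0 M o →L[ℝ] ℝ) := rfl

/-- Elementwise form of the norm bound. -/
theorem norm_freeMap_apply_le (φ : M → N) (K : ℝ≥0) (hφ : LipschitzWith K φ) (o : M) (o' : N)
    (y : free M o) : ‖freeMap φ K hφ o o' y‖ ≤ K * ‖y‖ := by
  rw [Submodule.coe_norm (freeMap φ K hφ o o' y), Submodule.coe_norm y, freeMap_coe]
  calc ‖adj φ K hφ o o' (y : Lip0 M o →L[ℝ] ℝ)‖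
      ≤ ‖adj φ K hφ o o'‖ * ‖(y : Lip0 M o →L[ℝ] ℝ)‖ := (adj φ K hφ o o').le_opNorm _
    _ ≤ K * ‖(y : Lip0 M o →L[ℝ] ℝ)‖ :=
      mul_le_mul_of_nonneg_right (norm_adj_le φ K hφ o o') (norm_nonneg _)

set_option maxSynthPendingDepth 2 in
theorem norm_freeMap_le (φ : M → N) (K : ℝ≥0) (hφ : LipschitzWith K φ) (o : M) (o' : N) :
    ‖freeMap φ K hφ o o'‖ ≤ K :=
  ContinuousLinearMap.opNorm_le_bound _ K.2 (fun y => norm_freeMap_apply_le φ K hφ o o' y)

theorem freeMap_retract (ι : N → M) (ρ : M → N) (A B : ℝ≥0) (hι : LipschitzWith A ι)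
    (hρ : LipschitzWith B ρ) (hρι : ∀ x, ρ (ι x) = x) (o : M) (o' : N) (y : free N o') :
    freeMap ρ B hρ o o' (freeMap ι A hι o' o y) = y := by
  apply Subtype.ext
  rw [freeMap_coe, freeMap_coe]
  ext f
  rw [adj_apply, adj_apply]
  congr 1
  apply Lip0.ext
  intro x
  rw [comp0_fn, comp0_fn, comp0_fn, hρι, hρι, Lip0.fn_base]
  ring

/-- The bounded approximation property passes to a retract; the two maps are controlled
elementwise. -/
theorem bap_of_retract_pointwise {X Y : Type*} [NormedAddCommGroup X] [NormedSpace ℝ X]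
    [NormedAddCommGroup Y] [NormedSpace ℝ Y] (i : Y →L[ℝ] X) (r : X →L[ℝ] Y)
    (hri : ∀ y, r (i y) = y) (A B : ℝ) (hA : 0 ≤ A) (hB : 0 ≤ B)
    (hi : ∀ y, ‖i y‖ ≤ A * ‖y‖) (hr : ∀ x, ‖r x‖ ≤ B * ‖x‖) (a : ℝ) (h : BAP a X) :
    BAP (B * A * a) Y := by
  intro C hC ε hε
  have hB1 : 0 < B + 1 := by linarith
  have hε' : 0 < ε / (B + 1) := div_pos hε hB1
  obtain ⟨T, hfin, hT, hTC⟩ := h (i '' C) (hC.image i.continuous) (ε / (B + 1)) hε'
  refine ⟨r.comp (T.comp i), ?_, ?_, ?_⟩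
  · have hle : LinearMap.range ((r.comp (T.comp i) : Y →L[ℝ] Y) : Y →ₗ[ℝ] Y)
        ≤ Submodule.map (r : X →ₗ[ℝ] Y) (LinearMap.range (T : X →ₗ[ℝ] X)) := by
      rintro _ ⟨y, rfl⟩
      exact ⟨T (i y), ⟨i y, rfl⟩, rfl⟩
    have := hfin
    exact Submodule.finiteDimensional_of_le hle
  · have ha : 0 ≤ a := (norm_nonneg T).trans hT
    refine ContinuousLinearMap.opNorm_le_bound _
      (mul_nonneg (mul_nonneg hB hA) ha) (fun y => ?_)
    have h1 : ‖r (T (i y))‖ ≤ B * ‖T (i y)‖ := hr _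
    have h2 : ‖T (i y)‖ ≤ ‖T‖ * ‖i y‖ := T.le_opNorm _
    have h3 : ‖T‖ * ‖i y‖ ≤ a * (A * ‖y‖) :=
      mul_le_mul hT (hi y) (norm_nonneg _) ha
    calc ‖(r.comp (T.comp i)) y‖ = ‖r (T (i y))‖ := rfl
      _ ≤ B * ‖T (i y)‖ := h1
      _ ≤ B * (a * (A * ‖y‖)) := mul_le_mul_of_nonneg_left (h2.trans h3) hB
      _ = B * A * a * ‖y‖ := by ring
  · intro u hu
    have h1 := hTC (i u) ⟨u, hu, rfl⟩
    have e : (r.comp (T.comp i)) u - u = r (T (i u) - i u) := by
      rw [map_sub, hri]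
      rfl
    rw [e]
    have h2 : ‖r (T (i u) - i u)‖ ≤ B * ‖T (i u) - i u‖ := hr _
    have h3 : B * ‖T (i u) - i u‖ ≤ B * (ε / (B + 1)) :=
      mul_le_mul_of_nonneg_left h1.le hB
    have h4 : B * (ε / (B + 1)) < ε := by
      rw [← mul_div_assoc, div_lt_iff₀ hB1]
      nlinarith
    linarith

/-- Skeleton statement J-D: the bounded approximation property of the free space passes to a
Lipschitz retract of the metric space. -/
theorem BAP_free_of_retract (ι : N → M) (ρ : M → N) (A B : ℝ≥0) (hι : LipschitzWith A ι)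
    (hρ : LipschitzWith B ρ) (hρι : ∀ x, ρ (ι x) = x) (o : M) (o' : N) (a : ℝ)
    (h : BAP a (free M o)) : BAP ((B : ℝ) * (A : ℝ) * a) (free N o') :=
  bap_of_retract_pointwise (freeMap ι A hι o' o) (freeMap ρ B hρ o o')
    (fun y => freeMap_retract ι ρ A B hι hρ hρι o o' y) A B A.2 B.2
    (fun y => norm_freeMap_apply_le ι A hι o' o y)
    (fun x => norm_freeMap_apply_le ρ B hρ o o' x) a h

end Vale.Agent.Lib.P090.H62
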